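import Crest.Agent.R272.Main14_414
import Crest.Agent.R272.Gm3_235

/-!
# R272, S14 end game (helper235): the last step of S0414

`NearX` : the data near the four curves with base points `z0`, `w0` (no disc in it); `NearX.nearD`;
`ArcsX` : the four paths; `s14_last` : S0414 from 595's model `M : NLoc k`, 414's `Discs`, `Sq14`, `CurvesOn`,
the slope dichotomy `SlD`, `NearX` and `ArcsX`.
-/

set_option autoImplicit false
set_option linter.unusedSectionVars false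

open Metric Set Filter Topology Function
open scoped Classical unitInterval

namespace Crest.Agent.R272.As1_235

open Crest.Agent.R275.Geo Crest.Agent.R275.Core144 Crest.Agent.R273.Map_835
open Crest.Agent.R273.Fam_835 Crest.Agent.R272.Quot_783 Crest.Agent.R272.Root_83
open Crest.Agent.R272.LbExt_259 Crest.Agent.R272.K3E_227 Crest.Agent.R272.UnB_894
open Crest.Agent.R272.Wall4_275 Crest.Agent.R272.Gm1_235 Crest.Agent.R272.Gm2_235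
open Crest.Agent.R272.Gm3_235 Dt14_414 Top14_414 G14a_414 Nl_595

noncomputable section

section gen

variable {X B C : Type} [TopologicalSpace X] [TopologicalSpace B] [TopologicalSpace C] {n : ℕ}

/-- the four functions near `Z`, base points `z0`, `w0` -/
structure NearX (CX : Fam n X) (AB : Atl 1 B) (AC : Atl 1 C) (h g : B → C) (z0 : B) (w0 : C)
    (π1 : X → B) (π2 : X → C) (f1 : B → ℂ) (f2 : C → ℂ) (γ0 : ℂ) (Z : Set X)
    (S T0 RM RN : X → ℂ) : Prop where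
  lc1 : UnB_894.LC AB z0 f1
  lc2 : UnB_894.LC AC w0 f2
  f1z : f1 z0 = 0
  f2w : f2 w0 = 0
  ne : γ0 ≠ 0
  he : ∃ e : B → ℂ, HG (fam AB) z0 e ∧ e z0 = γ0 ^ 2 ∧ ∀ᶠ z in 𝓝 z0, f2 (g z) = f1 z * e z
  hZ1 : ∀ x ∈ Z, π1 x = z0
  hZ2 : ∀ x ∈ Z, π2 x = w0
  hS : ∀ x ∈ Z, HG CX x S
  hT : ∀ x ∈ Z, HG CX x T0
  hM : ∀ x ∈ Z, HG CX x RM
  hN : ∀ x ∈ Z, HG CX x RN
  sS : ∀ x ∈ Z, ∀ᶠ z in 𝓝 x, S z ^ 2 = f2 (π2 z)
  sT : ∀ x ∈ Z, ∀ᶠ z in 𝓝 x, T0 z ^ 2 = f1 (π1 z)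
  sM : ∀ x ∈ Z, ∀ᶠ z in 𝓝 x, RM z ^ 2 = f2 (π2 z) - f2 (h (π1 z))
  sN : ∀ x ∈ Z, ∀ᶠ z in 𝓝 x, RN z ^ 2 = f2 (π2 z) - f2 (g (π1 z))

variable {CX : Fam n X} {AB : Atl 1 B} {AC : Atl 1 C} {h g : B → C} {z0 : B} {w0 : C}
  {π1 : X → B} {π2 : X → C} {f1 : B → ℂ} {f2 : C → ℂ} {γ0 : ℂ} {Z : Set X} {S T0 RM RN : X → ℂ}

theorem NearX.nearD (N : NearX CX AB AC h g z0 w0 π1 π2 f1 f2 γ0 Z S T0 RM RN)
    (E : Discs AB AC h g z0 w0) (s : Sq14 CX AB AC h g z0 w0 π1 π2) :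
    NearD (E.dat s) f1 f2 γ0 Z S T0 RM RN where
  lc1 := by
    show UnB_894.LC AB (E.q o) f1
    rw [E.qo]; exact N.lc1
  lc2 := by
    show UnB_894.LC AC (E.p o) f2
    rw [E.po]; exact N.lc2
  f1z := by
    show f1 (E.q o) = 0
    rw [E.qo]; exact N.f1z
  f2w := by
    show f2 (E.p o) = 0
    rw [E.po]; exact N.f2w
  ne := N.ne
  he := by
    show ∃ e : B → ℂ, HG (fam AB) (E.q o) e ∧ e (E.q o) = γ0 ^ 2 ∧
      ∀ᶠ z in 𝓝 (E.q o), f2 (g z) = f1 z * e z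
    rw [E.qo]; exact N.he
  hZ x hx := by
    show (π1 x, π2 x) = (E.q o, E.p o)
    rw [N.hZ1 x hx, N.hZ2 x hx, E.qo, E.po]
  hS := N.hS
  hT := N.hT
  hM := N.hM
  hN := N.hN
  sS := N.sS
  sT := N.sT
  sM := N.sM
  sN := N.sN

/-- the four paths -/
def ArcsX (γ0 : ℂ) (S T0 RM RN : X → ℂ) (Z : Set X) : Prop :=
  ∃ (z₀ z₁ z₂ z₃ : Z) (k₁ : Path z₀ z₁) (r₁ : Path z₁ z₂) (k₂ : Path z₂ z₃) (r₂ : Path z₃ z₀),
    ArcX γ0 S T0 RM RN k₁ ∧ ArcX γ0 S T0 RM RN k₂ ∧ (∀ t, Rat T0 S (r₁ t : X) 0) ∧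
      ∀ t, Rat T0 S (r₂ t : X) 0

/-- `Loc` over the data of 414 -/
theorem loc_dat (E : Discs AB AC h g z0 w0) (s : Sq14 CX AB AC h g z0 w0 π1 π2)
    (L : SlD CX AB AC (fun x => (π1 x, π2 x)) z0 w0 f1 f2) :
    Loc ((E.dat s).bd E.hS) ((E.dat s).rsB E.hS) := by
  have L' : SlD CX AB AC (fun x => (π1 x, π2 x)) (E.q o) (E.p o) f1 f2 := by
    rw [E.qo, E.po]; exact L
  exact loc14 (E.dat s) E.discD L'

end gen

section main

variable {B C : Type} [TopologicalSpace B] [TopologicalSpace C] {AB : Atl 1 B} {AC : Atl 1 C}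
  {h g : B → C} {z0 : B} {w0 : C} {k : ℂ} (M : NLoc k)

/-- **S0414 on the literal model, all germs and paths on the surface `X = M.D.X`** -/
theorem s14_last (E : Discs AB AC h g z0 w0) {π1 : M.D.X → B} {π2 : M.D.X → C}
    (s : Sq14 M.D.famX AB AC h g z0 w0 π1 π2) {Z : Set M.D.X} (hcv : CurvesOn M.D.famX Z)
    {f1 : B → ℂ} {f2 : C → ℂ} {γ0 : ℂ} {S T0 RM RN : M.D.X → ℂ}
    (L : SlD M.D.famX AB AC (fun x => (π1 x, π2 x)) z0 w0 f1 f2)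
    (N : NearX M.D.famX AB AC h g z0 w0 π1 π2 f1 f2 γ0 Z S T0 RM RN)
    (hA : ArcsX γ0 S T0 RM RN Z) : S14 := by
  obtain ⟨z₀, z₁, z₂, z₃, k₁, r₁, k₂, r₂, a1, a2, b1, b2⟩ := hA
  have Nd := N.nearD E s
  obtain ⟨R, hR, hRc, w₀, w₁, w₂, w₃, k₁', r₁', k₂', r₂', c1, c2, c3, c4⟩ :=
    wall_paths (d := E.dat s) E.discD Nd k₁ r₁ k₂ r₂ a1 a2 b1 b2
  exact Main14_414.s14_nloc M E s hcv (loc_dat E s L) (Zh := Zh (E.dat s) Z)
    (fun y hy => ⟨by rw [Zh_T hy]; rfl, by rw [Zh_W hy]; rfl⟩) (fun y hy => hy.1) R hR hRc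
    k₁' r₁' k₂' r₂' c1 c2 c3 c4

end main

end

end Crest.Agent.R272.As1_235
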