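import Crest.Agent.R272.As157_338
import Crest.Agent.R272.Ax7_834
import Crest.Agent.R272.Ins2_939
import Crest.Agent.R272.K3F_227
import Crest.Agent.R272.Arc2_297
import Crest.Agent.R272.Flop10_66

/-!
# R272, S15-ASM (helper338): final composition of S0415 over the concrete model

`Mod` : all choices (arithmetic data `M : Ar` of 939, `RA` on `X₁` (302), the curve functions, the germ
and the zero section (60, 916), the identification `e` (834) and the radius `ε` (66));
`m.S`, `m.CXP`, `m.q` : the surgery `XP`, its complex structure, the surface `C × C → XP`;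
`exists_mod`, `s15_mod`.
-/

set_option autoImplicit false
set_option linter.unusedSectionVars false

open Set Filter Topology TopologicalSpace
open scoped Topology

namespace Crest.Agent.R272.Fin_338

open Crest.Agent.R275.Geo Crest.Agent.R273.Fam_835
open Crest.Agent.R272.AJ_956 Crest.Agent.R272.UB_20
open Crest.Agent.R272.MQ_783 Crest.Agent.R272.Refl_246
open Crest.Agent.R272.Idn_834 Crest.Agent.R272.Ax_834 Crest.Agent.R272.HFam_342
open Crest.Agent.R272.Flop_66 Crest.Agent.R272.Sur_342 Crest.Agent.R272.M15_939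
open Crest.Agent.R272.Cur_297 Crest.Agent.R272.As15_338
open Crest.Agent.R272.Comp_259

noncomputable section

local notation "I" => unitInterval

/-- all choices of the model -/
structure Mod where
  M : Ar
  ra : RA M.CX M.G
  Nn : Set (Cz × Cz)
  U : Cz × Cz → E2
  hN : (cur Pz).NearE Nn U
  Ge : Germ (cur Pz) M.CX M.G M.s
  z : Cz × Cz → M.X
  Z : ZSec Ge z
  e : OpenPartialHomeomorph M.XQ Um
  hI : IsId (⟨hN, K3E_227.k3P hN, Ge, Um.stdU⟩ : Inp (cur Pz) Nn U M.CX M.G M.s Um.fam) e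
  he : ∀ x ∈ e.source, HC ra.fam Um.fam e x
  he' : ∀ u ∈ e.target, HC Um.fam ra.fam e.symm u
  ε : ℝ
  ε0 : 0 < ε
  sub : ∀ a : Um, a.N ≤ ε → a ∈ e.target

namespace Mod

variable (m : Mod)

/-- the data of the identification -/
abbrev Inp : Inp (cur Pz) m.Nn m.U m.M.CX m.M.G m.M.s Um.fam :=
  ⟨m.hN, K3E_227.k3P m.hN, m.Ge, Um.stdU⟩

/-- the surgery -/
abbrev S : Sur m.M.XQ Um Up := sur m.e m.ε m.ε0 m.sub

/-- the final manifold -/
abbrev XP : Type := m.S.XP

/-- holomorphy of the surgery data -/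
theorem hol : m.S.Hol m.ra.fam Um.fam Up.fam := surHol m.he m.he'

/-- the complex structure of `XP` -/
abbrev CXP : Fam 3 m.XP := Sur.fam m.hol

/-- the surface `C × C → XP` -/
abbrev q : Cz × Cz → m.XP := qP (cur Pz) m.e m.ε m.ε0 m.sub m.z

theorem hd : ∀ i, m.Inp.S.d i = Um.dix i := fun _ => rfl

/-- **the surface is holomorphically parametrised** -/
theorem qHol : QHol (cur Pz) m.CXP m.q :=
  Ax_834.qHol m.hI m.hd m.Z m.ra.hol m.ra.cov m.hol

instance : T2Space m.XP := inferInstance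

instance : CompactSpace m.XP := inferInstance

end Mod

/-- the model exists as soon as `RA`, the germ and the zero section exist -/
theorem exists_mod (M : Ar) (ra : RA M.CX M.G) (Ge : Germ (cur Pz) M.CX M.G M.s)
    {z : Cz × Cz → M.X} (Z : ZSec Ge z) {δ : ℝ} (hδ : 0 < δ) :
    ∃ m : Mod, m.M = M ∧ m.ε ≤ δ := by
  obtain ⟨Nn, U, hN⟩ := AJg_956.exists_nearE (𝒞 := cur Pz)
  let J : Inp (cur Pz) Nn U M.CX M.G M.s Um.fam := ⟨hN, K3E_227.k3P hN, Ge, Um.stdU⟩
  obtain ⟨e, hI, he, he'⟩ := exists_isId J ra.hol ra.cov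
  obtain ⟨ε, h1, h2, h3, -⟩ := exists_eps_sur e (hI.sub_target fun _ => rfl)
    (V := univ) isOpen_univ (fun _ _ => mem_univ _) hδ
  exact ⟨⟨M, ra, Nn, U, hN, Ge, z, Z, e, hI, he, he', ε, h1, h3⟩, rfl, h2⟩

/-- **S0415 from the model** -/
theorem s15_mod (m : Mod) (hpos : PosF m.CXP) (die1 : DiesQ (cur Pz) m.q (arc 1))
    (live2 : LivesQ (cur Pz) m.q (arc 2)) (die3 : DiesQ (cur Pz) m.q (arc 3))
    (die4 : DiesQ (cur Pz) m.q (arc 4)) : S15 :=
  s15_q hpos m.qHol (arc 1) (iv_arc_zero 1) (iv_arc_one 1) die1 live2 die3 die4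

end

end Crest.Agent.R272.Fin_338
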