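import Mathlib

/-!
# Poisson summation on `κ → ℝ` (general finite dimension)

Adapted from `R012/Poisson_381.lean` (dimension 2).

* `Dec C n g` : decay `‖g x‖ ≤ C (1+‖x‖)⁻¹ ^ n`
* `poisson_pi` : `∑ₘ g (x + m) = ∑ₖ ĝ(k) e(k·x)`
-/

set_option autoImplicit false
set_option linter.unusedSectionVars false

noncomputable section

open MeasureTheory Complex Set Filter Topology Module

namespace Crest.Agent.R272.Poi307

variable {κ : Type*} [Fintype κ]

/-- cast of integer vectors -/
def ic (m : κ → ℤ) : κ → ℝ := fun i => (m i : ℝ)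

@[simp] lemma ic_apply (m : κ → ℤ) (i : κ) : ic m i = m i := rfl

lemma ic_add (m n : κ → ℤ) : ic (m + n) = ic m + ic n := by
  ext i; simp

lemma norm_ic (m : κ → ℤ) : ‖ic m‖ = ‖m‖ := by
  simp only [ic, Pi.norm_def]
  congr 1

/-- projection to the torus -/
def pj : (κ → ℝ) → UnitAddTorus κ := Pi.map (fun _ => ((↑) : ℝ → UnitAddCircle))

lemma pj_quot : IsOpenQuotientMap (pj (κ := κ)) :=
  IsOpenQuotientMap.piMap (fun _ => QuotientAddGroup.isOpenQuotientMap_mk)

lemma pj_apply (x : κ → ℝ) (i : κ) : pj x i = (x i : UnitAddCircle) := rfl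

lemma pj_eq_iff {x y : κ → ℝ} : pj x = pj y ↔ ∃ m : κ → ℤ, y = x + ic m := by
  constructor
  · intro h
    have h1 : ∀ i, ∃ n : ℤ, y i = x i + n := by
      intro i
      have h2 : (x i : UnitAddCircle) = (y i : UnitAddCircle) := congrFun h i
      rw [eq_comm, ← sub_eq_zero, ← AddCircle.coe_sub, AddCircle.coe_eq_zero_iff] at h2
      obtain ⟨n, hn⟩ := h2
      refine ⟨n, ?_⟩
      simp at hn
      linarith
    choose m hm using h1
    exact ⟨m, funext hm⟩
  · rintro ⟨m, rfl⟩
    funext i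
    rw [pj_apply, pj_apply, Pi.add_apply, ic_apply, AddCircle.coe_add]
    have : ((m i : ℝ) : UnitAddCircle) = 0 := by
      rw [AddCircle.coe_eq_zero_iff]
      exact ⟨m i, by simp⟩
    rw [this, add_zero]

/-- dot product with an integer vector -/
def dot (k : κ → ℤ) (x : κ → ℝ) : ℝ := ∑ i, (k i : ℝ) * x i

/-- the character `exp (2πi k·x)` -/
def ch (k : κ → ℤ) (x : κ → ℝ) : ℂ := Complex.exp (2 * Real.pi * Complex.I * (dot k x : ℝ))

lemma norm_ch (k : κ → ℤ) (x : κ → ℝ) : ‖ch k x‖ = 1 := by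
  unfold ch
  rw [Complex.norm_exp]
  simp

lemma dot_add (k : κ → ℤ) (x y : κ → ℝ) : dot k (x + y) = dot k x + dot k y := by
  unfold dot
  rw [← Finset.sum_add_distrib]
  refine Finset.sum_congr rfl fun i _ => ?_
  simp only [Pi.add_apply]
  ring

lemma ch_add (k : κ → ℤ) (x y : κ → ℝ) : ch k (x + y) = ch k x * ch k y := by
  unfold ch
  rw [← Complex.exp_add, dot_add]
  congr 1
  push_cast
  ring

lemma ch_ic (k m : κ → ℤ) : ch k (ic m) = 1 := by
  unfold ch dot
  rw [Complex.exp_eq_one_iff]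
  refine ⟨∑ i, k i * m i, ?_⟩
  simp only [ic_apply]
  push_cast
  ring

lemma continuous_ch (k : κ → ℤ) : Continuous (ch k) := by
  unfold ch dot
  fun_prop

lemma mFourier_pj (k : κ → ℤ) (x : κ → ℝ) : UnitAddTorus.mFourier k (pj x) = ch k x := by
  simp only [UnitAddTorus.mFourier, ContinuousMap.coe_mk, pj_apply, fourier_coe_apply]
  unfold ch dot
  rw [← Complex.exp_sum]
  congr 1
  push_cast
  rw [Finset.mul_sum]
  refine Finset.sum_congr rfl fun i _ => ?_
  ring

/-- integral transform on `κ → ℝ` -/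
def FTp (g : (κ → ℝ) → ℂ) (k : κ → ℤ) : ℂ := ∫ x, ch (-k) x * g x

def cubeM (m : κ → ℤ) : Set (κ → ℝ) := {x | ∀ i, x i ∈ Set.Ioc (m i : ℝ) (m i + 1)}

lemma measurableSet_cubeM (m : κ → ℤ) : MeasurableSet (cubeM m) := by
  unfold cubeM
  have : {x : κ → ℝ | ∀ i, x i ∈ Set.Ioc (m i : ℝ) (m i + 1)} =
      Set.pi Set.univ (fun i => Set.Ioc (m i : ℝ) (m i + 1)) := by
    ext x; simp
  rw [this]
  exact MeasurableSet.univ_pi (fun i => measurableSet_Ioc)

lemma iUnion_cubeM : ⋃ m : κ → ℤ, cubeM m = Set.univ := by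
  refine Set.eq_univ_of_forall fun x => Set.mem_iUnion.2 ⟨fun i => ⌈x i⌉ - 1, fun i => ?_⟩
  constructor
  · push_cast
    linarith [Int.ceil_lt_add_one (x i)]
  · push_cast
    linarith [Int.le_ceil (x i)]

lemma disjoint_cubeM : Pairwise (Function.onFun Disjoint (cubeM (κ := κ))) := by
  intro m n hmn
  rw [Function.onFun, Set.disjoint_left]
  intro x hx hy
  apply hmn
  funext i
  have h1 := hx i
  have h2 := hy i
  have h3 : (m i : ℝ) < n i + 1 := lt_of_lt_of_le h1.1 h2.2
  have h4 : (n i : ℝ) < m i + 1 := lt_of_lt_of_le h2.1 h1.2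
  have h5 : m i < n i + 1 := by exact_mod_cast h3
  have h6 : n i < m i + 1 := by exact_mod_cast h4
  omega

lemma cubeM_eq_preimage (m : κ → ℤ) : cubeM m = (fun x => x + ic m) '' (cubeM 0) := by
  ext x
  simp only [cubeM, Set.mem_ofPred_eq, Set.mem_image, Pi.zero_apply, Int.cast_zero, zero_add]
  constructor
  · intro h
    refine ⟨x - ic m, fun i => ?_, by simp⟩
    have := h i
    simp only [Pi.sub_apply, ic_apply]
    constructor
    · linarith [this.1]
    · linarith [this.2]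
  · rintro ⟨y, hy, rfl⟩ i
    have := hy i
    simp only [Pi.add_apply, ic_apply]
    constructor
    · linarith [this.1]
    · linarith [this.2]

lemma setIntegral_cubeM (h : (κ → ℝ) → ℂ) (m : κ → ℤ) :
    ∫ x in cubeM m, h x = ∫ x in cubeM 0, h (x + ic m) := by
  rw [cubeM_eq_preimage]
  have hmp : MeasurePreserving (fun x : κ → ℝ => x + ic m) volume volume :=
    measurePreserving_add_right volume (ic m)
  have hemb : MeasurableEmbedding (fun x : κ → ℝ => x + ic m) :=
    measurableEmbedding_addRight (ic m)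
  rw [hmp.setIntegral_image_emb hemb]

lemma hasSum_cube {h : (κ → ℝ) → ℂ} (hi : Integrable h) :
    HasSum (fun m : κ → ℤ => ∫ x in cubeM 0, h (x + ic m)) (∫ x, h x) := by
  have h1 := hasSum_integral_iUnion (μ := volume) (f := h) (s := cubeM)
    (fun m => measurableSet_cubeM m) disjoint_cubeM (by rw [iUnion_cubeM]; exact hi.integrableOn)
  rw [iUnion_cubeM, setIntegral_univ] at h1
  have h2 : (fun m : κ → ℤ => ∫ x in cubeM 0, h (x + ic m)) =
      fun m : κ → ℤ => ∫ x in cubeM m, h x := by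
    funext m
    exact (setIntegral_cubeM h m).symm
  rw [h2]
  exact h1

/-! ### decay -/

/-- decay of order `n` -/
def Dec (C : ℝ) (n : ℕ) (g : (κ → ℝ) → ℂ) : Prop := ∀ x, ‖g x‖ ≤ C * ((1 + ‖x‖)⁻¹) ^ n

lemma one_add_norm_le (x : κ → ℝ) (m : κ → ℤ) : 1 + ‖m‖ ≤ (1 + ‖x + ic m‖) * (1 + ‖x‖) := by
  have h1 : ‖m‖ ≤ ‖x + ic m‖ + ‖x‖ := by
    rw [← norm_ic]
    have : ic m = (x + ic m) - x := by abel
    calc ‖ic m‖ = ‖(x + ic m) - x‖ := by rw [← this]
      _ ≤ _ := norm_sub_le _ _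
  nlinarith [norm_nonneg (x + ic m), norm_nonneg x, mul_nonneg (norm_nonneg (x + ic m)) (norm_nonneg x)]

lemma dec_bound {C : ℝ} {n : ℕ} {g : (κ → ℝ) → ℂ} (hC : 0 ≤ C) (hg : Dec C n g) (R : ℝ)
    {x : κ → ℝ} (hx : ‖x‖ ≤ R) (m : κ → ℤ) :
    ‖g (x + ic m)‖ ≤ (C * (1 + R) ^ n) * ((1 + ‖m‖)⁻¹) ^ n := by
  have h0 : 0 < 1 + ‖x + ic m‖ := by positivity
  have h1 : 0 < 1 + ‖x‖ := by positivity
  have h2 : 0 < 1 + ‖m‖ := by positivity
  have hR : 0 ≤ R := le_trans (norm_nonneg _) hx
  refine (hg _).trans ?_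
  rw [mul_assoc]
  refine mul_le_mul_of_nonneg_left ?_ hC
  rw [← mul_pow]
  refine pow_le_pow_left₀ (by positivity) ?_ n
  rw [← div_eq_mul_inv, le_div_iff₀ h2, inv_mul_le_iff₀ h0]
  refine (one_add_norm_le x m).trans ?_
  exact mul_le_mul_of_nonneg_left (by linarith) h0.le

lemma summable_wt {n : ℕ} (hn : Fintype.card κ < n) :
    Summable fun m : κ → ℤ => ((1 + ‖m‖)⁻¹) ^ n := by
  classical
  let b : Basis κ ℝ (κ → ℝ) := Pi.basisFun ℝ κ
  let L : Submodule ℤ (κ → ℝ) := Submodule.span ℤ (Set.range b)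
  have hfr : Module.finrank ℤ L < n := by
    rw [ZLattice.rank ℝ L, Module.finrank_fintype_fun_eq_card]
    exact hn
  have hs := ZLattice.summable_norm_sub_inv_pow (L := L) n hfr 0
  have e : L ≃ₗ[ℤ] (κ → ℤ) := (b.restrictScalars ℤ).equivFun
  let e' : (κ → ℤ) ≃ L := ((b.restrictScalars ℤ).equivFun).symm.toEquiv
  have he : ∀ m : κ → ℤ, ((e' m : L) : κ → ℝ) = ic m := by
    intro m
    have h1 : e' m = ∑ i, m i • (b.restrictScalars ℤ) i := by
      show (((b.restrictScalars ℤ).equivFun).symm m) = _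
      rw [Module.Basis.equivFun_symm_apply]
    rw [h1]
    simp only [Submodule.coe_sum, Submodule.coe_smul, Module.Basis.restrictScalars_apply]
    ext i
    simp [b, Pi.single_apply]
  have hs' : Summable fun m : κ → ℤ => (‖m‖⁻¹) ^ n := by
    have := (e'.summable_iff).2 hs
    refine this.congr fun m => ?_
    simp only [Function.comp, sub_zero]
    rw [he, norm_ic]
  have h1 : Summable fun m : κ → ℤ => (‖m‖⁻¹) ^ n + (if m = 0 then 1 else 0) := by
    refine hs'.add ?_
    exact summable_of_ne_finset_zero (s := {0}) (fun m hm => by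
      rw [if_neg (by simpa using hm)])
  refine Summable.of_nonneg_of_le (fun m => by positivity) (fun m => ?_) h1
  by_cases hm : m = 0
  · subst hm
    simp only [norm_zero, add_zero, inv_one, one_pow, if_true]
    have : (0:ℝ) ≤ (0⁻¹ : ℝ) ^ n := by positivity
    linarith
  · rw [if_neg hm, add_zero]
    have hpos : 0 < ‖m‖ := norm_pos_iff.2 hm
    refine pow_le_pow_left₀ (by positivity) ?_ n
    exact inv_anti₀ hpos (by linarith)

lemma summable_shift {C : ℝ} {n : ℕ} {g : (κ → ℝ) → ℂ} (hC : 0 ≤ C) (hn : Fintype.card κ < n)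
    (hg : Dec C n g) (x : κ → ℝ) :
    Summable fun m : κ → ℤ => g (x + ic m) := by
  refine Summable.of_norm_bounded ((summable_wt hn).mul_left (C * (1 + ‖x‖) ^ n)) (fun m => ?_)
  exact dec_bound hC hg ‖x‖ le_rfl m

/-- periodization -/
def per (g : (κ → ℝ) → ℂ) (x : κ → ℝ) : ℂ := ∑' m : κ → ℤ, g (x + ic m)

lemma per_add (g : (κ → ℝ) → ℂ) (x : κ → ℝ) (m : κ → ℤ) : per g (x + ic m) = per g x := by
  unfold per
  rw [← (Equiv.addLeft m).tsum_eq (fun n : κ → ℤ => g (x + ic n))]
  apply tsum_congr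
  intro n
  simp only [Equiv.coe_addLeft, ic_add]
  rw [add_assoc]

lemma continuous_per {C : ℝ} {n : ℕ} {g : (κ → ℝ) → ℂ} (hc : Continuous g) (hC : 0 ≤ C)
    (hn : Fintype.card κ < n) (hg : Dec C n g) : Continuous (per g) := by
  rw [continuous_iff_continuousAt]
  intro x
  have h1 : ContinuousOn (per g) (Metric.ball x 1) := by
    unfold per
    refine continuousOn_tsum (u := fun m : κ → ℤ => (C * (1 + (‖x‖ + 1)) ^ n) * ((1 + ‖m‖)⁻¹) ^ n)
      (fun m => (hc.comp (continuous_id.add continuous_const)).continuousOn)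
      ((summable_wt hn).mul_left _) (fun m y hy => ?_)
    apply dec_bound hC hg
    have h2 : dist y x < 1 := hy
    have h3 : ‖y‖ ≤ ‖x‖ + dist y x := by
      rw [dist_eq_norm]
      calc ‖y‖ = ‖x + (y - x)‖ := by congr 1; abel
        _ ≤ _ := norm_add_le _ _
    linarith
  exact h1.continuousAt (Metric.ball_mem_nhds x one_pos)

/-- periodization as a function on the torus -/
def perT {C : ℝ} {n : ℕ} {g : (κ → ℝ) → ℂ} (hc : Continuous g) (hC : 0 ≤ C)
    (hn : Fintype.card κ < n) (hg : Dec C n g) : C(UnitAddTorus κ, ℂ) :=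
  pj_quot.isQuotientMap.lift (f := ⟨pj, pj_quot.continuous⟩)
    ⟨per g, continuous_per hc hC hn hg⟩ (by
      intro x y hxy
      obtain ⟨m, rfl⟩ := pj_eq_iff.1 hxy
      exact (per_add g x m).symm)

lemma perT_pj {C : ℝ} {n : ℕ} {g : (κ → ℝ) → ℂ} (hc : Continuous g) (hC : 0 ≤ C)
    (hn : Fintype.card κ < n) (hg : Dec C n g) (x : κ → ℝ) :
    perT hc hC hn hg (pj x) = per g x := by
  have := Topology.IsQuotientMap.lift_comp
    (f := (⟨pj, pj_quot.continuous⟩ : C(κ → ℝ, UnitAddTorus κ)))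
    pj_quot.isQuotientMap (⟨per g, continuous_per hc hC hn hg⟩ : C(κ → ℝ, ℂ)) (by
      intro x y hxy
      obtain ⟨m, rfl⟩ := pj_eq_iff.1 hxy
      exact (per_add g x m).symm)
  exact congrArg (fun f : C(κ → ℝ, ℂ) => f x) this

lemma integrable_of_dec {C : ℝ} {n : ℕ} {g : (κ → ℝ) → ℂ} (hc : Continuous g)
    (hn : Fintype.card κ < n) (hg : Dec C n g) : Integrable g := by
  have h1 : Integrable (fun x : κ → ℝ => (1 + ‖x‖) ^ (-(n : ℝ))) :=
    integrable_one_add_norm (by
      rw [Module.finrank_fintype_fun_eq_card]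
      exact_mod_cast hn)
  refine (h1.const_mul C).mono' hc.aestronglyMeasurable (Filter.Eventually.of_forall fun x => ?_)
  have h2 : (1 + ‖x‖) ^ (-(n : ℝ)) = ((1 + ‖x‖)⁻¹) ^ n := by
    rw [Real.rpow_neg (by positivity), Real.rpow_natCast, inv_pow]
  rw [h2]
  exact hg x

lemma coeff_perT {C : ℝ} {n : ℕ} {g : (κ → ℝ) → ℂ} (hc : Continuous g) (hC : 0 ≤ C)
    (hn : Fintype.card κ < n) (hg : Dec C n g) (k : κ → ℤ) :
    UnitAddTorus.mFourierCoeff (perT hc hC hn hg) k = FTp g k := by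
  rw [UnitAddTorus.mFourierCoeff_eq_integral _ _ (0 : κ → ℝ)]
  have hcube : {x : κ → ℝ | ∀ i, x i ∈ Set.Ioc ((0 : κ → ℝ) i) ((0 : κ → ℝ) i + 1)} = cubeM 0 := by
    ext x; simp [cubeM]
  rw [hcube]
  have h1 : ∀ x : κ → ℝ, UnitAddTorus.mFourier (-k) (fun i => (x i : UnitAddCircle)) •
      perT hc hC hn hg (fun i => (x i : UnitAddCircle)) =
      ∑' m : κ → ℤ, ch (-k) (x + ic m) * g (x + ic m) := by
    intro x
    have e1 : (fun i => (x i : UnitAddCircle)) = pj x := rfl
    rw [e1, mFourier_pj, perT_pj, smul_eq_mul, per, ← tsum_mul_left]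
    apply tsum_congr
    intro m
    rw [ch_add, ch_ic, mul_one]
  simp_rw [h1]
  have hint : Integrable (fun x : κ → ℝ => ch (-k) x * g x) := by
    have := integrable_of_dec hc hn hg
    refine this.bdd_mul (c := 1) (continuous_ch (-k)).aestronglyMeasurable ?_
    exact Filter.Eventually.of_forall fun x => (norm_ch (-k) x).le
  have h2 := hasSum_cube hint
  rw [FTp, ← h2.tsum_eq]
  rw [integral_tsum_of_summable_integral_norm]
  · intro m
    have : Integrable (fun x : κ → ℝ => ch (-k) (x + ic m) * g (x + ic m)) :=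
      hint.comp_add_right (ic m)
    exact this.integrableOn
  · have hfin : volume (cubeM (0 : κ → ℤ)) ≠ ⊤ := by
      have : cubeM (0 : κ → ℤ) = Set.pi Set.univ (fun _ : κ => Set.Ioc (0:ℝ) (0 + 1)) := by
        ext x; simp [cubeM]
      rw [this, Real.volume_pi_Ioc]
      simp
    refine Summable.of_nonneg_of_le (fun m => integral_nonneg fun x => norm_nonneg _)
      (fun m => ?_) ((summable_wt hn).mul_left ((C * (1 + 1) ^ n) * (volume (cubeM (0 : κ → ℤ))).toReal))
    calc ∫ x in cubeM 0, ‖ch (-k) (x + ic m) * g (x + ic m)‖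
        ≤ ∫ x in cubeM 0, (C * (1 + 1) ^ n) * ((1 + ‖m‖)⁻¹) ^ n := by
          refine setIntegral_mono_on ?_ (integrableOn_const hfin) (measurableSet_cubeM 0) ?_
          · exact (hint.comp_add_right (ic m)).norm.integrableOn
          · intro x hx
            rw [norm_mul, norm_ch, one_mul]
            apply dec_bound hC hg
            rw [pi_norm_le_iff_of_nonneg zero_le_one]
            intro i
            have := hx i
            simp only [Pi.zero_apply, Int.cast_zero, zero_add] at this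
            rw [Real.norm_eq_abs, abs_le]
            constructor
            · linarith [this.1]
            · exact this.2
      _ = _ := by
          rw [setIntegral_const, smul_eq_mul, Measure.real]
          ring

/-- **Poisson summation** on `κ → ℝ`. -/
theorem poisson_pi {C : ℝ} {n : ℕ} {g : (κ → ℝ) → ℂ} (hc : Continuous g) (hC : 0 ≤ C)
    (hn : Fintype.card κ < n) (hg : Dec C n g) (hF : Summable (FTp g)) (x : κ → ℝ) :
    HasSum (fun k : κ → ℤ => FTp g k * ch k x) (∑' m : κ → ℤ, g (x + ic m)) := by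
  have h0 : UnitAddTorus.mFourierCoeff (perT hc hC hn hg) = FTp g :=
    funext (coeff_perT hc hC hn hg)
  have h1 := UnitAddTorus.hasSum_mFourier_series_apply_of_summable
    (f := perT hc hC hn hg) (by rw [h0]; exact hF) (pj x)
  rw [perT_pj, h0] at h1
  simpa only [mFourier_pj, smul_eq_mul, per] using h1

end Crest.Agent.R272.Poi307
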