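import Mathlib

/-!
# R272 (S0415), POS at `p0` (helper848), part 1: the sixteen functions `Φ` and their factorisations

`x0, E1 = x1 + x2, E2 = x1 x2` are the normalised base coordinates near the cluster point `p0`,
`D = E1² - 4 E2 = (x1 - x2)²`, `N = x0³ W D = 2 E2³ - x0⁵ E1 - 2 y1 y2` (`W = x0 G(c,c')`, `G` the
Kummer function), `v = E2 / x0`, and `b = β + 15`.  With `ℓ = (x0, E1, v)`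

  `Φ = D⁴ x0^b · {ℓ_i, W, W², W³ ℓ_i, W⁴ ℓ_i ℓ_j}, D⁴ (x1 x2)^b, D⁴ (x1 x2)^(b-12) (x0³ W)⁴`.

All are polynomials in `x0, E1, E2, N`.  Near every point of `K = π⁻¹(p0) ⊆ X⁺` (and near every point
of `X⁻ \ S` close to `K`) `Φ i = γ * ψ i` with `ψ` holomorphic and without common zero; the pointwise
identities are proved here for the following four local forms:

* `facS`  : `x0 = ξ s0, E1 = ξ s1, E2 = ξ² s0 s2, N = ξ⁶ s0³ (s1² - 4 s0 s2) G` (charts `E`, off `Γ`;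
            chart `W4` at `o`);
* `facV`  : `x0 = μ s0, E1 = μ s1, E2 = μ² s0 s2, s1² - 4 s0 s2 = A n, N = μ⁴ s0³ n`
            (`W1, W2` : `A = α²`; `W3` : `A = 1`, `μ = r`; charts `E` near `Γ`, `ξ ≠ 0` : `A = 1/(G ξ²)`);
* `facM1` : `x0 = m E2, N = E2³ (E1² - 4 E2) h` (m-lines, equal sheets);
* `facM2` : `x0 = m E2, N = E2³ h` (m-line through `e`, opposite sheets; `h ≠ 0`).
-/

set_option autoImplicit false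

namespace Crest.Agent.R272.PosP_848

noncomputable section

/-- the sixteen functions -/
def Phi (β : ℕ) (x0 E1 E2 N : ℂ) : Fin 16 → ℂ :=
  ![(E1 ^ 2 - 4 * E2) ^ 4 * x0 ^ (β + 16),
    (E1 ^ 2 - 4 * E2) ^ 4 * x0 ^ (β + 15) * E1,
    (E1 ^ 2 - 4 * E2) ^ 4 * x0 ^ (β + 14) * E2,
    (E1 ^ 2 - 4 * E2) ^ 3 * x0 ^ (β + 12) * N,
    (E1 ^ 2 - 4 * E2) ^ 2 * x0 ^ (β + 9) * N ^ 2,
    (E1 ^ 2 - 4 * E2) * x0 ^ (β + 7) * N ^ 3,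
    (E1 ^ 2 - 4 * E2) * x0 ^ (β + 6) * E1 * N ^ 3,
    (E1 ^ 2 - 4 * E2) * x0 ^ (β + 5) * E2 * N ^ 3,
    x0 ^ (β + 5) * N ^ 4,
    x0 ^ (β + 4) * E1 * N ^ 4,
    x0 ^ (β + 3) * E2 * N ^ 4,
    x0 ^ (β + 3) * E1 ^ 2 * N ^ 4,
    x0 ^ (β + 2) * E1 * E2 * N ^ 4,
    x0 ^ (β + 1) * E2 ^ 2 * N ^ 4,
    (E1 ^ 2 - 4 * E2) ^ 4 * E2 ^ (β + 15),
    E2 ^ (β + 3) * N ^ 4]

/-- reduced vector, form `S` -/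
def psiS (β : ℕ) (ξ s0 s1 s2 G : ℂ) : Fin 16 → ℂ :=
  ![s0, s1, s2, G, ξ * G ^ 2, ξ ^ 3 * G ^ 3 * s0, ξ ^ 3 * G ^ 3 * s1, ξ ^ 3 * G ^ 3 * s2,
    ξ ^ 5 * G ^ 4 * (s0 * s0), ξ ^ 5 * G ^ 4 * (s0 * s1), ξ ^ 5 * G ^ 4 * (s0 * s2),
    ξ ^ 5 * G ^ 4 * (s1 * s1), ξ ^ 5 * G ^ 4 * (s1 * s2), ξ ^ 5 * G ^ 4 * (s2 * s2),
    ξ ^ (β + 14) * s2 ^ (β + 15), ξ ^ (β + 6) * s2 ^ (β + 3) * G ^ 4]

/-- common factor, form `S` -/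
def gamS (β : ℕ) (ξ s0 s1 s2 : ℂ) : ℂ :=
  ξ ^ (β + 24) * (s1 ^ 2 - 4 * s0 * s2) ^ 4 * s0 ^ (β + 15)

theorem facS (β : ℕ) {x0 E1 E2 N ξ s0 s1 s2 G : ℂ} (h0 : x0 = ξ * s0) (h1 : E1 = ξ * s1)
    (h2 : E2 = ξ ^ 2 * (s0 * s2)) (h3 : N = ξ ^ 6 * s0 ^ 3 * (s1 ^ 2 - 4 * s0 * s2) * G)
    (i : Fin 16) : Phi β x0 E1 E2 N i = gamS β ξ s0 s1 s2 * psiS β ξ s0 s1 s2 G i := by
  subst h0 h1 h2 h3
  fin_cases i <;> simp only [Phi, psiS, gamS] <;> simp <;> ring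

/-- reduced vector, form `V` -/
def psiV (β : ℕ) (μ A s0 s1 s2 : ℂ) : Fin 16 → ℂ :=
  ![μ ^ 3 * A ^ 4 * s0, μ ^ 3 * A ^ 4 * s1, μ ^ 3 * A ^ 4 * s2, μ * A ^ 3, A ^ 2,
    A * s0, A * s1, A * s2, s0 * s0, s0 * s1, s0 * s2, s1 * s1, s1 * s2, s2 * s2,
    μ ^ (β + 17) * A ^ 4 * s2 ^ (β + 15), μ ^ (β + 1) * s2 ^ (β + 3)]

/-- common factor, form `V` -/
def gamV (β : ℕ) (μ s0 n : ℂ) : ℂ := μ ^ (β + 21) * s0 ^ (β + 15) * n ^ 4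

theorem facV (β : ℕ) {x0 E1 E2 N μ A s0 s1 s2 n : ℂ} (h0 : x0 = μ * s0) (h1 : E1 = μ * s1)
    (h2 : E2 = μ ^ 2 * (s0 * s2)) (hA : s1 ^ 2 - 4 * s0 * s2 = A * n)
    (h3 : N = μ ^ 4 * s0 ^ 3 * n) (i : Fin 16) :
    Phi β x0 E1 E2 N i = gamV β μ s0 n * psiV β μ A s0 s1 s2 i := by
  have hD : E1 ^ 2 - 4 * E2 = μ ^ 2 * (A * n) := by rw [h1, h2, ← hA]; ring
  simp only [Phi, hD]
  subst h0 h1 h2 h3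
  fin_cases i <;> simp only [psiV, gamV] <;> simp <;> ring

/-- reduced vector, form `M1` -/
def psiM1 (β : ℕ) (m E1 E2 h : ℂ) : Fin 16 → ℂ :=
  ![m ^ (β + 16) * E2, m ^ (β + 15) * E1, m ^ (β + 14), m ^ (β + 12) * h, m ^ (β + 9) * h ^ 2,
    m ^ (β + 7) * E2 * h ^ 3, m ^ (β + 6) * E1 * h ^ 3, m ^ (β + 5) * h ^ 3,
    m ^ (β + 5) * E2 ^ 2 * h ^ 4, m ^ (β + 4) * E1 * E2 * h ^ 4, m ^ (β + 3) * E2 * h ^ 4,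
    m ^ (β + 3) * E1 ^ 2 * h ^ 4, m ^ (β + 2) * E1 * h ^ 4, m ^ (β + 1) * h ^ 4, 1, h ^ 4]

/-- common factor, form `M1` -/
def gamM1 (β : ℕ) (E1 E2 : ℂ) : ℂ := (E1 ^ 2 - 4 * E2) ^ 4 * E2 ^ (β + 15)

theorem facM1 (β : ℕ) {x0 E1 E2 N m h : ℂ} (h0 : x0 = m * E2)
    (h3 : N = E2 ^ 3 * (E1 ^ 2 - 4 * E2) * h) (i : Fin 16) :
    Phi β x0 E1 E2 N i = gamM1 β E1 E2 * psiM1 β m E1 E2 h i := by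
  subst h0 h3
  fin_cases i <;> simp only [Phi, psiM1, gamM1] <;> simp <;> ring

/-- reduced vector, form `M2` -/
def psiM2 (β : ℕ) (m E1 E2 h : ℂ) : Fin 16 → ℂ :=
  ![(E1 ^ 2 - 4 * E2) ^ 4 * m ^ (β + 16) * E2, (E1 ^ 2 - 4 * E2) ^ 4 * m ^ (β + 15) * E1,
    (E1 ^ 2 - 4 * E2) ^ 4 * m ^ (β + 14), (E1 ^ 2 - 4 * E2) ^ 3 * m ^ (β + 12) * h,
    (E1 ^ 2 - 4 * E2) ^ 2 * m ^ (β + 9) * h ^ 2,
    (E1 ^ 2 - 4 * E2) * m ^ (β + 7) * E2 * h ^ 3, (E1 ^ 2 - 4 * E2) * m ^ (β + 6) * E1 * h ^ 3,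
    (E1 ^ 2 - 4 * E2) * m ^ (β + 5) * h ^ 3,
    m ^ (β + 5) * E2 ^ 2 * h ^ 4, m ^ (β + 4) * E1 * E2 * h ^ 4, m ^ (β + 3) * E2 * h ^ 4,
    m ^ (β + 3) * E1 ^ 2 * h ^ 4, m ^ (β + 2) * E1 * h ^ 4, m ^ (β + 1) * h ^ 4,
    (E1 ^ 2 - 4 * E2) ^ 4, h ^ 4]

/-- common factor, form `M2` -/
def gamM2 (β : ℕ) (E2 : ℂ) : ℂ := E2 ^ (β + 15)

theorem facM2 (β : ℕ) {x0 E1 E2 N m h : ℂ} (h0 : x0 = m * E2) (h3 : N = E2 ^ 3 * h)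
    (i : Fin 16) : Phi β x0 E1 E2 N i = gamM2 β E2 * psiM2 β m E1 E2 h i := by
  subst h0 h3
  fin_cases i <;> simp only [Phi, psiM2, gamM2] <;> simp <;> ring

end

end Crest.Agent.R272.PosP_848
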