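import Crest.Agent.R272.RQ1_302
import Crest.Agent.R273.Map_835
import Crest.Agent.R276.C1bdA_986

/-!
# R272, leaf RQUOT, part 2 (helper302): complex structure on `G\X`

`QC A p`    : a quotient chart: an open set `U` of `X`, a holomorphic open map `φ` on `U` with the same
              fibres as the quotient map `p`, locally biholomorphic off the zeros of `D ∘ φ`;
`qAtl Q`    : the atlas of the quotient given by a covering family of quotient charts;
`holMap_p`  : `p` is holomorphic;
`holAt_of_pull` : a function on the quotient is holomorphic if its pull-back is.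
-/

set_option autoImplicit false
set_option linter.unusedSectionVars false

open Set Filter Topology Complex

namespace Crest.Agent.R272.RQ2_302

open Crest.Agent.R275.Geo Crest.Agent.R275.Core144 Crest.Agent.R273.Defs_333
  Crest.Agent.R273.Map_835 Crest.Agent.R272.RQ1_302

noncomputable section

variable {n : ℕ} {X : Type} [TopologicalSpace X] {M : Type} [TopologicalSpace M]
  {G : Type*} [Group G] [MulAction G X]

/-- a chart of the quotient of `X` -/
structure QC (A : Atl n X) (p : X → M) where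
  U : Set X
  x₀ : X
  op : IsOpen U
  φ : X → Cn n
  hol : ∀ i, DifferentiableOn ℂ (fun z => φ ((A.e i).symm z))
    ((A.e i).target ∩ (A.e i).symm ⁻¹' U)
  opn : ∀ V ⊆ U, IsOpen V → IsOpen (φ '' V)
  fib : ∀ u ∈ U, ∀ v ∈ U, p u = p v ↔ φ u = φ v
  cube : ∀ u ∈ U, ∀ k, rc (φ u) k ∈ Ioo (0 : ℝ) 1
  D : Cn n → ℂ
  Dan : ∀ z, AnalyticAt ℂ D z
  Dne : ∀ a, ¬ ∀ᶠ z in 𝓝 a, D z = 0
  inv : ∀ u ∈ U, D (φ u) ≠ 0 → ∃ i, u ∈ (A.e i).source ∧
    Function.Injective (fderiv ℂ (fun z => φ ((A.e i).symm z)) (A.e i u))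

variable {A : Atl n X} {p : X → M}

namespace QC

variable (Q : QC A p)

theorem contOn : ContinuousOn Q.φ Q.U := by
  intro u hu
  obtain ⟨i, hi⟩ := A.cover u
  have h1 : ContinuousAt (fun z => Q.φ ((A.e i).symm z)) (A.e i u) := by
    refine (Q.hol i).continuousOn.continuousAt (((A.e i).isOpen_inter_preimage_symm Q.op).mem_nhds
      ⟨(A.e i).map_source hi, ?_⟩)
    rw [mem_preimage, (A.e i).left_inv hi]
    exact hu
  have h2 : ContinuousAt (fun y => Q.φ ((A.e i).symm (A.e i y))) u :=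
    ContinuousAt.comp (f := fun y => A.e i y) (g := fun z => Q.φ ((A.e i).symm z)) h1
      ((A.e i).continuousAt hi)
  refine ContinuousAt.continuousWithinAt (h2.congr ?_)
  filter_upwards [(A.e i).open_source.mem_nhds hi] with y hy
  rw [(A.e i).left_inv hy]

/-- the chart on the quotient -/
def ch (hp : Continuous p) (hpo : IsOpenMap p) : OpenPartialHomeomorph M (Cn n) :=
  mkChart p hp hpo Q.x₀ Q.U Q.op Q.φ Q.contOn Q.opn Q.fib

variable {Q} {hp : Continuous p} {hpo : IsOpenMap p}

@[simp] theorem ch_source : (Q.ch hp hpo).source = p '' Q.U := rfl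
@[simp] theorem ch_target : (Q.ch hp hpo).target = Q.φ '' Q.U := rfl

theorem ch_apply {u : X} (hu : u ∈ Q.U) : Q.ch hp hpo (p u) = Q.φ u := mkChart_apply hu

theorem ch_symm {u : X} (hu : u ∈ Q.U) : (Q.ch hp hpo).symm (Q.φ u) = p u := mkChart_symm_apply hu

/-- a local holomorphic section of `p` at generic points -/
theorem exists_section (Q : QC A p) {u : X} (hu : u ∈ Q.U) (hD : Q.D (Q.φ u) ≠ 0) {O : Set X}
    (hO : O ∈ 𝓝 u) : ∃ (i : A.ι) (W : Set (Cn n)) (s : Cn n → Cn n), IsOpen W ∧ Q.φ u ∈ W ∧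
      u ∈ (A.e i).source ∧ DifferentiableOn ℂ s W ∧ s (Q.φ u) = A.e i u ∧
      (∀ w ∈ W, s w ∈ (A.e i).target ∧ (A.e i).symm (s w) ∈ O ∩ Q.U ∧
        Q.φ ((A.e i).symm (s w)) = w) := by
  obtain ⟨i, hi, hinj⟩ := Q.inv u hu hD
  set f : Cn n → Cn n := fun z => Q.φ ((A.e i).symm z) with hf
  have hopen : IsOpen ((A.e i).target ∩ (A.e i).symm ⁻¹' Q.U) :=
    (A.e i).isOpen_inter_preimage_symm Q.op
  have hmem : A.e i u ∈ (A.e i).target ∩ (A.e i).symm ⁻¹' Q.U :=
    ⟨(A.e i).map_source hi, by rw [mem_preimage, (A.e i).left_inv hi]; exact hu⟩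
  have han : AnalyticAt ℂ f (A.e i u) :=
    Crest.Agent.R266.SCV.analyticOnNhd_of_differentiableOn hopen (Q.hol i) _ hmem
  let L : Cn n →L[ℂ] Cn n := fderiv ℂ f (A.e i u)
  have hbij : Function.Bijective (L : Cn n →ₗ[ℂ] Cn n) :=
    ⟨hinj, LinearMap.injective_iff_surjective.1 hinj⟩
  let f' : Cn n ≃L[ℂ] Cn n := (LinearEquiv.ofBijective (L : Cn n →ₗ[ℂ] Cn n)
    hbij).toContinuousLinearEquiv
  have hf' : HasFDerivAt f (f' : Cn n →L[ℂ] Cn n) (A.e i u) := by
    have h1 : (f' : Cn n →L[ℂ] Cn n) = L := by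
      ext v
      rfl
    rw [h1]
    exact han.differentiableAt.hasFDerivAt
  have hU : ((A.e i).target ∩ (A.e i).symm ⁻¹' (interior O ∩ Q.U)) ∈ 𝓝 (A.e i u) := by
    refine ((A.e i).isOpen_inter_preimage_symm (isOpen_interior.inter Q.op)).mem_nhds
      ⟨(A.e i).map_source hi, ?_⟩
    rw [mem_preimage, (A.e i).left_inv hi]
    exact ⟨mem_interior_iff_mem_nhds.2 hO, hu⟩
  obtain ⟨e, hxe, hesub, hef, -, hesym⟩ :=
    Crest.Agent.R266.SCV.exists_analytic_openPartialHomeomorph han f' hf' hU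
  have hfx : f (A.e i u) = Q.φ u := by
    show Q.φ ((A.e i).symm (A.e i u)) = _
    rw [(A.e i).left_inv hi]
  refine ⟨i, e.target, e.symm, e.open_target, ?_, hi, ?_, ?_, ?_⟩
  · rw [← hfx, ← hef]
    exact e.map_source hxe
  · intro w hw
    exact (hesym w hw).differentiableAt.differentiableWithinAt
  · rw [← hfx, ← hef]
    exact e.left_inv hxe
  · intro w hw
    have h1 := hesub (e.map_target hw)
    refine ⟨h1.1, ⟨interior_subset h1.2.1, h1.2.2⟩, ?_⟩
    have h2 := hef (e.symm w)
    rw [e.right_inv hw] at h2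
    exact h2.symm

end QC

/-- the zero set of `D` is nowhere dense: continuous + holomorphic off the zeros is holomorphic -/
theorem diffOn_of_cont {f D : Cn n → ℂ} {W : Set (Cn n)} (hW : IsOpen W)
    (hD : ∀ z, AnalyticAt ℂ D z) (hne : ∀ a, ¬ ∀ᶠ z in 𝓝 a, D z = 0)
    (hc : ContinuousOn f W) (hf : DifferentiableOn ℂ f (W ∩ {z | D z ≠ 0})) :
    DifferentiableOn ℂ f W := by
  obtain ⟨g, hg, hgf⟩ := Crest.Agent.R276.C1bd_986.ext_bdd hW (fun z _ => hD z)
    (fun a _ => hne a) hf (by
      intro a ha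
      have h1 : ContinuousAt f a := hc.continuousAt (hW.mem_nhds ha)
      have h2 : ∀ᶠ z in 𝓝 a, ‖f z‖ < ‖f a‖ + 1 :=
        h1.norm.eventually (gt_mem_nhds (lt_add_one _))
      exact ⟨_, h2, ‖f a‖ + 1, fun z hz _ _ => le_of_lt hz⟩)
  refine hg.congr fun a ha => ?_
  by_contra hne'
  have h1 : ContinuousAt f a := hc.continuousAt (hW.mem_nhds ha)
  have h2 : ContinuousAt g a := hg.continuousOn.continuousAt (hW.mem_nhds ha)
  have h3 : ∀ᶠ z in 𝓝 a, f z - g z ≠ 0 := (h1.sub h2).eventually_ne (sub_ne_zero.2 hne')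
  refine hne a ?_
  filter_upwards [h3, hW.mem_nhds ha] with z hz hzW
  by_contra hDz
  exact hz (sub_eq_zero.2 (hgf z hzW hDz).symm)

section Atlas

variable (hQ : IsQ G X (⊤ : Subgroup G) p) (hG : ∀ g : G, HolMap A A (fun x => g • x))
include hQ hG

/-- functions on the quotient with holomorphic pull-back are holomorphic in the quotient charts -/
theorem hol_of_pull (Q : QC A p) {V : Set M} (hV : IsOpen V) {f : M → ℂ}
    (hf : ∀ i, HolAt A i (p ⁻¹' V) (fun x => f (p x))) :
    DifferentiableOn ℂ (fun z => f ((Q.ch hQ.cont hQ.opn).symm z))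
      ((Q.ch hQ.cont hQ.opn).target ∩ (Q.ch hQ.cont hQ.opn).symm ⁻¹' V) := by
  set c := Q.ch hQ.cont hQ.opn with hc
  have hW : IsOpen (c.target ∩ c.symm ⁻¹' V) := c.isOpen_inter_preimage_symm hV
  have hfc : ContinuousOn f V := by
    intro m hm
    obtain ⟨x, rfl⟩ := hQ.surj m
    obtain ⟨i, hi⟩ := A.cover x
    have h1 : ContinuousAt (fun y => f (p y)) x := by
      have h2 : ContinuousAt (fun z => f (p ((A.e i).symm z))) (A.e i x) := by
        refine (hf i).continuousOn.continuousAt (((A.e i).isOpen_inter_preimage_symm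
          (hV.preimage hQ.cont)).mem_nhds ⟨(A.e i).map_source hi, ?_⟩)
        rw [mem_preimage, (A.e i).left_inv hi]
        exact hm
      have h3 : ContinuousAt (fun y => f (p ((A.e i).symm (A.e i y)))) x :=
        ContinuousAt.comp (f := fun y => A.e i y) (g := fun z => f (p ((A.e i).symm z))) h2
          ((A.e i).continuousAt hi)
      refine h3.congr ?_
      filter_upwards [(A.e i).open_source.mem_nhds hi] with y hy
      rw [(A.e i).left_inv hy]
    refine ContinuousAt.continuousWithinAt ?_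
    intro s hs
    have h4 : p '' ((fun y => f (p y)) ⁻¹' s) ∈ 𝓝 (p x) := hQ.opn.image_mem_nhds (h1 hs)
    rw [mem_map]
    refine mem_of_superset h4 ?_
    rintro _ ⟨y, hy, rfl⟩
    exact hy
  refine diffOn_of_cont hW Q.Dan Q.Dne ?_ ?_
  · exact hfc.comp (c.continuousOn_symm.mono inter_subset_left) fun z hz => hz.2
  · rintro w ⟨⟨hw, hwV⟩, hwD⟩
    obtain ⟨u, hu, rfl⟩ := hw
    have hcu : c.symm (Q.φ u) = p u := QC.ch_symm hu
    have hO : p ⁻¹' V ∈ 𝓝 u := (hV.preimage hQ.cont).mem_nhds (by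
      rw [mem_preimage, ← hcu]
      exact hwV)
    obtain ⟨i, W, s, hWo, hwW, hi, hs, hsu, hsW⟩ := Q.exists_section hu hwD hO
    have h1 : DifferentiableOn ℂ (fun w => f (p ((A.e i).symm (s w)))) W := by
      refine DifferentiableOn.comp (g := fun z => f (p ((A.e i).symm z))) (f := s)
        (t := (A.e i).target ∩ (A.e i).symm ⁻¹' (p ⁻¹' V)) (hf i) hs ?_
      intro w hw
      exact ⟨(hsW w hw).1, (hsW w hw).2.1.1⟩
    refine DifferentiableAt.differentiableWithinAt ?_
    refine (h1.differentiableAt (hWo.mem_nhds hwW)).congr_of_eventuallyEq ?_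
    filter_upwards [hWo.mem_nhds hwW] with w hw
    have h2 := (hsW w hw).2.2
    have h3 : c.symm w = p ((A.e i).symm (s w)) := by
      conv_lhs => rw [← h2]
      exact QC.ch_symm (hsW w hw).2.1.2
    show f (c.symm w) = _
    rw [h3]

/-- the coordinates of a quotient chart, pulled back, are holomorphic -/
theorem pull_coord (Q : QC A p) (i : A.ι) (k : Fin n) :
    HolAt A i (p ⁻¹' (p '' Q.U)) (fun x => Q.ch hQ.cont hQ.opn (p x) k) := by
  rintro z ⟨hz, hz'⟩
  obtain ⟨u, hu, hpu⟩ := hz'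
  obtain ⟨g, -, hg⟩ := (hQ.fib _ _).1 hpu.symm
  -- `g • (A.e i).symm z = u ∈ U`
  obtain ⟨j, hj⟩ := A.cover u
  have hdm : z ∈ dm A A (fun x => g • x) i j := by
    refine ⟨hz, ?_⟩
    show g • (A.e i).symm z ∈ (A.e j).source
    rw [hg]
    exact hj
  have h1 := (hG g).diffAt hdm
  have h2 : DifferentiableAt ℂ (fun w => Q.φ ((A.e j).symm w)) (A.e j u) := by
    refine (Q.hol j).differentiableAt (((A.e j).isOpen_inter_preimage_symm Q.op).mem_nhds
      ⟨(A.e j).map_source hj, ?_⟩)
    rw [mem_preimage, (A.e j).left_inv hj]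
    exact hu
  have hrd : rd A A (fun x => g • x) i j z = A.e j u := by
    show A.e j (g • (A.e i).symm z) = _
    rw [hg]
  rw [← hrd] at h2
  have h3 := h2.comp z h1
  have h4 : DifferentiableAt ℂ (fun w => ((fun w => Q.φ ((A.e j).symm w)) ∘
      (rd A A (fun x => g • x) i j)) w k) z := by
    have := (EuclideanSpace.proj k : Cn n →L[ℂ] ℂ).differentiableAt.comp z h3
    exact this
  refine DifferentiableAt.differentiableWithinAt (h4.congr_of_eventuallyEq ?_)
  have hopen : IsOpen ((dm A A (fun x => g • x) i j) ∩ (A.e i).symm ⁻¹'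
      ((fun x => g • x) ⁻¹' Q.U) ∩ (A.e i).target) := by
    have := ((A.e i).isOpen_inter_preimage_symm (Q.op.preimage (hG g).cont)).inter
      ((hG g).isOpen_dm i j)
    convert this using 1
    ext w
    simp only [mem_inter_iff, mem_preimage, dm]
    tauto
  filter_upwards [hopen.mem_nhds ⟨⟨hdm, by
    show g • (A.e i).symm z ∈ Q.U
    rw [hg]; exact hu⟩, hz⟩] with w hw
  have hwU : g • (A.e i).symm w ∈ Q.U := hw.1.2
  have hws : g • (A.e i).symm w ∈ (A.e j).source := hw.1.1.2
  show Q.ch hQ.cont hQ.opn (p ((A.e i).symm w)) k = Q.φ ((A.e j).symm (A.e j (g • (A.e i).symm w))) k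
  rw [(A.e j).left_inv hws, ← QC.ch_apply (hp := hQ.cont) (hpo := hQ.opn) hwU]
  rw [(hQ.fib ((A.e i).symm w) (g • (A.e i).symm w)).2 ⟨g, trivial, rfl⟩]

/-- the atlas of the quotient -/
def qAtl (I : Type) (Q : I → QC A p) (hcov : ∀ m : M, ∃ i, m ∈ p '' (Q i).U) : Atl n M where
  ι := I
  e i := (Q i).ch hQ.cont hQ.opn
  cover := hcov
  cube := by
    rintro i _ ⟨u, hu, rfl⟩ k
    exact (Q i).cube u hu k
  holo i j := by
    have h1 : ∀ k, DifferentiableOn ℂ
        (fun z => (Q j).ch hQ.cont hQ.opn (((Q i).ch hQ.cont hQ.opn).symm z) k)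
        (((Q i).ch hQ.cont hQ.opn).target ∩ ((Q i).ch hQ.cont hQ.opn).symm ⁻¹'
          (p '' (Q j).U)) := by
      intro k
      exact hol_of_pull hQ hG (Q i) (hQ.opn _ (Q j).op) (f := fun m => (Q j).ch hQ.cont hQ.opn m k)
        (fun l => pull_coord hQ hG (Q j) l k)
    rw [differentiableOn_euclidean]
    exact h1

variable {I : Type} {Q : I → QC A p} {hcov : ∀ m : M, ∃ i, m ∈ p '' (Q i).U}

/-- the quotient map is holomorphic -/
theorem holMap_p : HolMap A (qAtl hQ hG I Q hcov) p where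
  cont := hQ.cont
  hol i j := by
    rw [differentiableOn_euclidean]
    intro k
    exact pull_coord hQ hG (Q j) i k

/-- a function on the quotient is holomorphic if its pull-back is -/
theorem holAt_of_pull {V : Set M} (hV : IsOpen V) {f : M → ℂ}
    (hf : ∀ i, HolAt A i (p ⁻¹' V) (fun x => f (p x))) (j : I) :
    HolAt (qAtl hQ hG I Q hcov) j V f :=
  hol_of_pull hQ hG (Q j) hV hf

/-- a map on the quotient is holomorphic if its composition with the projection is -/
theorem holMap_of_pull {m : ℕ} {N : Type} [TopologicalSpace N] {B : Atl m N} {f : M → N}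
    (hf : HolMap A B (fun x => f (p x))) : HolMap (qAtl hQ hG I Q hcov) B f where
  cont := by
    rw [hQ.isQuotientMap.continuous_iff]
    exact hf.cont
  hol i j := by
    have hfc : Continuous f := by
      rw [hQ.isQuotientMap.continuous_iff]
      exact hf.cont
    rw [differentiableOn_euclidean]
    intro k
    refine hol_of_pull hQ hG (Q i) ((B.e j).open_source.preimage hfc)
      (f := fun x => B.e j (f x) k) ?_
    intro l
    have h1 := hf.hol l j
    rw [differentiableOn_euclidean] at h1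
    exact h1 k

end Atlas

end

end Crest.Agent.R272.RQ2_302
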