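import Crest.Agent.R272.RQ2_302

/-!
# R272, leaf RQUOT, part 3 (helper302): quotient charts at points with trivial or reflection stabiliser

* `Qm ℓ a v = v + (ℓ v ^ 2 - ℓ v) • a` : the quotient map of the linear reflection
  `v ↦ v - 2 ℓ(v) a`;
* `IsRefl A σ x` : the derivative of `σ` at the fixed point `x` is a reflection;
* `exists_QC`, `exists_QC_finite` : covering families of quotient charts.
-/

set_option autoImplicit false
set_option linter.unusedSectionVars false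

open Set Filter Topology Complex

namespace Crest.Agent.R272.RQ3_302

open Crest.Agent.R275.Geo Crest.Agent.R275.Core144 Crest.Agent.R273.Defs_333
  Crest.Agent.R273.Map_835 Crest.Agent.R272.RQ1_302 Crest.Agent.R272.RQ2_302

noncomputable section

/-! ### the linear model -/

section Linear

variable {n : ℕ} (ℓ : Cn n →L[ℂ] ℂ) (a : Cn n)

/-- quotient map of the reflection `v ↦ v - 2 ℓ(v) a` -/
def Qm (v : Cn n) : Cn n := v + (ℓ v ^ 2 - ℓ v) • a

variable {ℓ a} (ha : ℓ a = 1)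
include ha

theorem l_Qm (v : Cn n) : ℓ (Qm ℓ a v) = ℓ v ^ 2 := by
  simp [Qm, ha]

theorem Qm_eq_iff (v w : Cn n) : Qm ℓ a v = Qm ℓ a w ↔ w = v ∨ w = v - (2 * ℓ v) • a := by
  constructor
  · intro h
    have h1 : ℓ v ^ 2 = ℓ w ^ 2 := by rw [← l_Qm ha, ← l_Qm ha, h]
    have h2 : w = v + ((ℓ v ^ 2 - ℓ v) - (ℓ w ^ 2 - ℓ w)) • a := by
      rw [sub_smul, ← add_sub_assoc]
      exact eq_sub_of_add_eq h.symm
    have h3 : (ℓ w - ℓ v) * (ℓ w + ℓ v) = 0 := by linear_combination -h1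
    rcases mul_eq_zero.1 h3 with h4 | h4
    · left
      rw [h2]
      have : ((ℓ v ^ 2 - ℓ v) - (ℓ w ^ 2 - ℓ w)) = 0 := by
        linear_combination h1 + h4
      rw [this, zero_smul, add_zero]
    · right
      rw [h2]
      have : ((ℓ v ^ 2 - ℓ v) - (ℓ w ^ 2 - ℓ w)) = -(2 * ℓ v) := by
        linear_combination h1 + h4
      rw [this, neg_smul, sub_eq_add_neg]
  · rintro (rfl | rfl)
    · rfl
    · unfold Qm
      have h1 : ℓ (v - (2 * ℓ v) • a) = - ℓ v := by
        simp [ha]; ring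
      rw [h1]
      module

theorem Qm_lift (v w : Cn n) : ∃ v', Qm ℓ a v' = w ∧
    dist v' v ≤ dist w (Qm ℓ a v) + ‖a‖ * (‖ℓ w - ℓ v ^ 2‖ + Real.sqrt ‖ℓ w - ℓ v ^ 2‖) := by
  obtain ⟨t, ht⟩ : ∃ t : ℂ, t ^ 2 = ℓ w := IsAlgClosed.exists_pow_nat_eq _ (by norm_num)
  obtain ⟨s, hs, hs'⟩ : ∃ s : ℂ, s ^ 2 = ℓ w ∧ ‖s - ℓ v‖ ≤ ‖s + ℓ v‖ := by
    rcases le_total ‖t - ℓ v‖ ‖t + ℓ v‖ with h | h
    · exact ⟨t, ht, h⟩
    · refine ⟨-t, by rw [neg_sq, ht], ?_⟩
      rw [← norm_neg (-t - ℓ v), ← norm_neg (-t + ℓ v)]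
      have h1 : -(-t - ℓ v) = t + ℓ v := by ring
      have h2 : -(-t + ℓ v) = t - ℓ v := by ring
      rw [h1, h2]
      exact h
  have hsq : ‖s - ℓ v‖ ≤ Real.sqrt ‖ℓ w - ℓ v ^ 2‖ := by
    refine Real.le_sqrt_of_sq_le ?_
    have h1 : ℓ w - ℓ v ^ 2 = (s - ℓ v) * (s + ℓ v) := by rw [← hs]; ring
    rw [h1, norm_mul, sq]
    exact mul_le_mul_of_nonneg_left hs' (norm_nonneg _)
  refine ⟨w - (ℓ w) • a + s • a, ?_, ?_⟩
  · have h1 : ℓ (w - (ℓ w) • a + s • a) = s := by simp [ha]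
    unfold Qm
    rw [h1, hs]
    module
  · have h1 : w - (ℓ w) • a + s • a - v = (w - Qm ℓ a v) +
        ((s - ℓ v) - (ℓ w - ℓ v ^ 2)) • a := by
      unfold Qm
      module
    rw [dist_eq_norm, h1]
    refine (norm_add_le _ _).trans ?_
    rw [dist_eq_norm]
    gcongr
    rw [norm_smul, mul_comm]
    gcongr
    refine (norm_sub_le _ _).trans ?_
    linarith

theorem isOpenMap_Qm : IsOpenMap (Qm ℓ a) := by
  intro V hV
  rw [Metric.isOpen_iff]
  rintro _ ⟨v, hv, rfl⟩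
  obtain ⟨ε, hε, hball⟩ := Metric.isOpen_iff.1 hV v hv
  have hc : Continuous fun w => dist w (Qm ℓ a v) +
      ‖a‖ * (‖ℓ w - ℓ v ^ 2‖ + Real.sqrt ‖ℓ w - ℓ v ^ 2‖) := by fun_prop
  have h0 : dist (Qm ℓ a v) (Qm ℓ a v) +
      ‖a‖ * (‖ℓ (Qm ℓ a v) - ℓ v ^ 2‖ + Real.sqrt ‖ℓ (Qm ℓ a v) - ℓ v ^ 2‖) < ε := by
    rw [l_Qm ha]
    simpa using hε
  obtain ⟨δ, hδ, hδ'⟩ := Metric.eventually_nhds_iff.1
    (hc.continuousAt.eventually (gt_mem_nhds h0))
  refine ⟨δ, hδ, fun w hw => ?_⟩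
  obtain ⟨v', hv', hd⟩ := Qm_lift ha v w
  exact ⟨v', hball (lt_of_le_of_lt hd (hδ' hw)), hv'⟩

omit ha in
theorem hasFDerivAt_Qm (v : Cn n) : HasFDerivAt (Qm ℓ a)
    (ContinuousLinearMap.id ℂ (Cn n) + ((2 * ℓ v - 1) • ℓ).smulRight a) v := by
  have h1 : HasFDerivAt (fun v => ℓ v) ℓ v := ℓ.hasFDerivAt
  have h2 : HasFDerivAt (fun v => ℓ v ^ 2 - ℓ v) ((2 * ℓ v - 1) • ℓ) v := by
    have h3 : HasFDerivAt (fun v => ℓ v * ℓ v - ℓ v) (ℓ v • ℓ + ℓ v • ℓ - ℓ) v :=
      (h1.mul h1).sub h1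
    have h4 : (fun v => ℓ v ^ 2 - ℓ v) = fun v => ℓ v * ℓ v - ℓ v := by
      funext v
      rw [sq]
    rw [h4]
    refine h3.congr_fderiv ?_
    module
  exact (hasFDerivAt_id v).add (h2.smul_const a)

omit ha in
theorem differentiable_Qm : Differentiable ℂ (Qm ℓ a) := fun v =>
  (hasFDerivAt_Qm v).differentiableAt

theorem Qm_inj {v w : Cn n} (hv : ℓ v ≠ 0)
    (h : (ContinuousLinearMap.id ℂ (Cn n) + ((2 * ℓ v - 1) • ℓ).smulRight a) w = 0) : w = 0 := by
  have h1 : w + ((2 * ℓ v - 1) * ℓ w) • a = 0 := by simpa using h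
  have h2 := congrArg ℓ h1
  simp only [map_add, map_smul, ha, smul_eq_mul, mul_one, map_zero] at h2
  have h3 : 2 * ℓ v * ℓ w = 0 := by linear_combination h2
  have h4 : ℓ w = 0 := by
    rcases mul_eq_zero.1 h3 with h5 | h5
    · exact absurd h5 (mul_ne_zero two_ne_zero hv)
    · exact h5
  rw [h4, mul_zero, zero_smul, add_zero] at h1
  exact h1

end Linear

/-- the centre of the unit cube -/
def c0 (n : ℕ) : Cn n := WithLp.toLp 2 fun _ => (1 / 2 + 1 / 2 * I : ℂ)

theorem cube_of_small {n : ℕ} {w : Cn n} (hw : ‖w‖ < 1 / 2) (k : RI n) :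
    rc (c0 n + w) k ∈ Ioo (0 : ℝ) 1 := by
  have h1 : ‖w k.1‖ ≤ ‖w‖ := PiLp.norm_apply_le w k.1
  have h2 := abs_le.1 ((Complex.abs_re_le_norm (w k.1)).trans h1)
  have h3 := abs_le.1 ((Complex.abs_im_le_norm (w k.1)).trans h1)
  unfold rc
  split_ifs with h
  · have h4 : ((c0 n + w) k.1).re = 1 / 2 + (w k.1).re := by
      simp [c0]
    rw [h4]
    constructor <;> linarith [h2.1, h2.2]
  · have h4 : ((c0 n + w) k.1).im = 1 / 2 + (w k.1).im := by
      simp [c0]
    rw [h4]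
    constructor <;> linarith [h3.1, h3.2]

variable {n : ℕ} {X : Type} [TopologicalSpace X] {M : Type} [TopologicalSpace M]
  {G : Type*} [Group G] [MulAction G X] {A : Atl n X} {p : X → M}

/-- the derivative of `σ` at its fixed point `x` is a reflection of order two -/
def IsRefl (A : Atl n X) (σ : G) (x : X) : Prop :=
  ∃ i, x ∈ (A.e i).source ∧ ∃ (ℓ : Cn n →L[ℂ] ℂ) (a : Cn n), ℓ a = 1 ∧
    ∀ v, fderiv ℂ (fun z => A.e i (σ • (A.e i).symm z)) (A.e i x) v = v - (2 * ℓ v) • a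

/-- all stabilisers are trivial or generated by one reflection -/
def ReflStab (G : Type*) [Group G] [MulAction G X] (A : Atl n X) : Prop :=
  ∀ (x : X) (g : G), g • x = x → g = 1 ∨
    (IsRefl A g x ∧ ∀ h : G, h • x = x → h = 1 ∨ h = g)

section

variable [ContinuousConstSMul G X] [ProperlyDiscontinuousSMul G X] [T2Space X]
  [LocallyCompactSpace X]
variable (hQ : IsQ G X (⊤ : Subgroup G) p) (hG : ∀ g : G, HolMap A A (fun x => g • x))
include hQ hG

/-- a quotient chart at a point with trivial stabiliser -/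
theorem exists_QC_free (x : X) (hx : ∀ g : G, g • x = x → g = 1) : ∃ Q : QC A p, x ∈ Q.U := by
  obtain ⟨i, hi⟩ := A.cover x
  obtain ⟨U, hUo, hxU, hUs, -, hU⟩ := exists_inv_nhd G x ((A.e i).open_source.mem_nhds hi)
  refine ⟨{ U := U, x₀ := x, op := hUo, φ := A.e i, hol := ?_, opn := ?_, fib := ?_, cube := ?_,
            D := fun _ => 1, Dan := fun _ => analyticAt_const, Dne := ?_, inv := ?_ }, hxU⟩
  · intro j
    refine (A.holo j i).mono ?_
    rintro z ⟨hz, hz'⟩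
    exact ⟨hz, hUs hz'⟩
  · intro V hV hVo
    exact (A.e i).isOpen_image_of_subset_source hVo (hV.trans hUs)
  · intro u hu v hv
    constructor
    · intro h
      obtain ⟨g, -, hg⟩ := (hQ.fib _ _).1 h
      have h1 : g = 1 := hx g (hU g u hu (by rw [hg]; exact hv))
      rw [h1, one_smul] at hg
      rw [hg]
    · intro h
      rw [(A.e i).injOn (hUs hu) (hUs hv) h]
  · intro u hu k
    exact A.cube i _ ((A.e i).map_source (hUs hu)) k
  · intro a h
    obtain ⟨z, hz⟩ := h.exists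
    exact one_ne_zero hz
  · intro u hu _
    refine ⟨i, hUs hu, ?_⟩
    have h1 : fderiv ℂ (fun z => A.e i ((A.e i).symm z)) (A.e i u) =
        fderiv ℂ (fun z => z) (A.e i u) := by
      refine Filter.EventuallyEq.fderiv_eq ?_
      filter_upwards [(A.e i).open_target.mem_nhds ((A.e i).map_source (hUs hu))] with z hz
      exact (A.e i).right_inv hz
    rw [h1, fderiv_fun_id]
    exact fun a b h => h

/-- a quotient chart at a point whose stabiliser is generated by a reflection -/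
theorem exists_QC_refl (x : X) (σ : G) (hσ : σ • x = x) (hσ1 : σ ≠ 1)
    (hst : ∀ h : G, h • x = x → h = 1 ∨ h = σ) (hR : IsRefl A σ x) :
    ∃ Q : QC A p, x ∈ Q.U := by
  obtain ⟨i, hi, ℓ, a, ha, hL⟩ := hR
  have hσ2 : σ * σ = 1 := by
    rcases hst (σ * σ) (by rw [mul_smul, hσ, hσ]) with h | h
    · exact h
    · exact absurd (mul_eq_left.1 h) hσ1
  have hσσ : ∀ u : X, σ • σ • u = u := fun u => by rw [← mul_smul, hσ2, one_smul]
  set z₀ : Cn n := A.e i x with hz₀
  set S : Cn n → Cn n := fun z => A.e i (σ • (A.e i).symm z) with hS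
  set L : Cn n →L[ℂ] Cn n := fderiv ℂ S z₀ with hLdef
  have hLv : ∀ v, L v = v - (2 * ℓ v) • a := hL
  have hLL : ∀ v, L (L v) = v := by
    intro v
    rw [hLv, hLv]
    have : ℓ (v - (2 * ℓ v) • a) = - ℓ v := by simp [ha]; ring
    rw [this]
    module
  have hdm : z₀ ∈ dm A A (fun x => σ • x) i i :=
    mem_dm hi (by show σ • x ∈ _; rw [hσ]; exact hi)
  have hSan : AnalyticAt ℂ S z₀ := (hG σ).analyticAt hdm
  have hS0 : S z₀ = z₀ := by
    show A.e i (σ • (A.e i).symm (A.e i x)) = A.e i x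
    rw [(A.e i).left_inv hi, hσ]
  -- the linearising coordinate
  set Ψ : X → Cn n := fun u => (1 / 2 : ℂ) • ((A.e i u - z₀) + L (A.e i (σ • u) - z₀)) with hΨ
  set F : Cn n → Cn n := fun z => (1 / 2 : ℂ) • ((z - z₀) + L (S z - z₀)) with hF
  have hFan : AnalyticAt ℂ F z₀ := by
    have hA1 : AnalyticAt ℂ (fun z : Cn n => z - z₀) z₀ := analyticAt_id.sub analyticAt_const
    have hA2 : AnalyticAt ℂ (fun z : Cn n => L (S z - z₀)) z₀ :=
      (L.analyticAt _).comp (hSan.sub analyticAt_const)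
    have hA3 : AnalyticAt ℂ (fun _ : Cn n => (1 / 2 : ℂ)) z₀ := analyticAt_const
    exact hA3.smul (hA1.add hA2)
  have hF' : HasFDerivAt F ((ContinuousLinearEquiv.refl ℂ (Cn n) : Cn n ≃L[ℂ] Cn n) :
      Cn n →L[ℂ] Cn n) z₀ := by
    have h1 : HasFDerivAt (fun z => z - z₀) (ContinuousLinearMap.id ℂ (Cn n)) z₀ :=
      (hasFDerivAt_id z₀).sub_const z₀
    have h2 : HasFDerivAt (fun z => S z - z₀) L z₀ :=
      hSan.differentiableAt.hasFDerivAt.sub_const z₀
    have h3 : HasFDerivAt (fun z => L (S z - z₀)) (L.comp L) z₀ :=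
      L.hasFDerivAt.comp z₀ h2
    have h4 := (h1.add h3).const_smul (1 / 2 : ℂ)
    refine h4.congr_fderiv ?_
    ext1 v
    show (1 / 2 : ℂ) • (v + L (L v)) = v
    rw [hLL]
    module
  have hF0 : F z₀ = 0 := by
    show (1 / 2 : ℂ) • ((z₀ - z₀) + L (S z₀ - z₀)) = 0
    rw [hS0, sub_self, map_zero, add_zero, smul_zero]
  obtain ⟨e, hze, hesub, heF, hean, hesym⟩ :=
    Crest.Agent.R266.SCV.exists_analytic_openPartialHomeomorph hFan _ hF'
      ((A.e i).open_target.mem_nhds ((A.e i).map_source hi))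
  -- small neighbourhood
  have hcont : ContinuousAt (fun u => Qm ℓ a (F (A.e i u))) x := by
    have h1 : ContinuousAt F (A.e i x) := hFan.continuousAt
    have h2 : ContinuousAt (fun u => F (A.e i u)) x :=
      ContinuousAt.comp (f := fun u => A.e i u) (g := F) h1 ((A.e i).continuousAt hi)
    exact (differentiable_Qm.continuous.continuousAt).comp h2
  have hval : Qm ℓ a (F (A.e i x)) = 0 := by
    have : F (A.e i x) = 0 := hF0
    rw [this]
    simp [Qm]
  have hsmall : ∀ᶠ u in 𝓝 x, ‖Qm ℓ a (F (A.e i u))‖ < 1 / 2 := by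
    have h1 : ‖Qm ℓ a (F (A.e i x))‖ < 1 / 2 := by rw [hval, norm_zero]; norm_num
    exact hcont.norm.eventually (gt_mem_nhds h1)
  have hesrc : ∀ᶠ u in 𝓝 x, A.e i u ∈ e.source :=
    ((A.e i).continuousAt hi).eventually (e.open_source.mem_nhds hze)
  have hV : {u | u ∈ (A.e i).source ∧ A.e i u ∈ e.source ∧ ‖Qm ℓ a (F (A.e i u))‖ < 1 / 2} ∈
      𝓝 x := by
    filter_upwards [(A.e i).open_source.mem_nhds hi, hesrc, hsmall] with u h1 h2 h3
    exact ⟨h1, h2, h3⟩
  obtain ⟨U, hUo, hxU, hUs, hUinv, hU⟩ := exists_inv_nhd G x hV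
  have hΨF : ∀ u ∈ U, Ψ u = F (A.e i u) := by
    intro u hu
    show (1 / 2 : ℂ) • ((A.e i u - z₀) + L (A.e i (σ • u) - z₀)) =
      (1 / 2 : ℂ) • ((A.e i u - z₀) + L (A.e i (σ • (A.e i).symm (A.e i u)) - z₀))
    rw [(A.e i).left_inv (hUs hu).1]
  have hΨe : ∀ u ∈ U, Ψ u = e (A.e i u) := fun u hu => by rw [hΨF u hu, heF]
  have hΨinj : ∀ u ∈ U, ∀ v ∈ U, Ψ u = Ψ v → u = v := by
    intro u hu v hv h
    rw [hΨe u hu, hΨe v hv] at h
    exact (A.e i).injOn (hUs hu).1 (hUs hv).1 (e.injOn (hUs hu).2.1 (hUs hv).2.1 h)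
  have hΨσ : ∀ u, Ψ (σ • u) = L (Ψ u) := by
    intro u
    show (1 / 2 : ℂ) • ((A.e i (σ • u) - z₀) + L (A.e i (σ • σ • u) - z₀)) =
      L ((1 / 2 : ℂ) • ((A.e i u - z₀) + L (A.e i (σ • u) - z₀)))
    rw [hσσ, map_smul, map_add, hLL, add_comm]
  have hUσ : ∀ u ∈ U, σ • u ∈ U := hUinv σ hσ
  refine ⟨{ U := U, x₀ := x, op := hUo, φ := fun u => c0 n + Qm ℓ a (Ψ u), hol := ?_, opn := ?_,
            fib := ?_, cube := ?_, D := fun w => ℓ (w - c0 n), Dan := ?_, Dne := ?_,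
            inv := ?_ }, hxU⟩
  · intro j
    have h1 : DifferentiableOn ℂ (fun z => A.e i ((A.e j).symm z))
        ((A.e j).target ∩ (A.e j).symm ⁻¹' U) :=
      (A.holo j i).mono fun z hz => ⟨hz.1, (hUs hz.2).1⟩
    have h2 : DifferentiableOn ℂ (fun z => A.e i (σ • (A.e j).symm z))
        ((A.e j).target ∩ (A.e j).symm ⁻¹' U) :=
      ((hG σ).hol j i).mono fun z hz => ⟨hz.1, (hUs (hUσ _ hz.2)).1⟩
    have h3 : DifferentiableOn ℂ (fun z => (1 / 2 : ℂ) • ((A.e i ((A.e j).symm z) - z₀) +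
        L (A.e i (σ • (A.e j).symm z) - z₀))) ((A.e j).target ∩ (A.e j).symm ⁻¹' U) := by
      have h3b : DifferentiableOn ℂ (fun z => L (A.e i (σ • (A.e j).symm z) - z₀))
          ((A.e j).target ∩ (A.e j).symm ⁻¹' U) :=
        L.differentiable.comp_differentiableOn (h2.sub_const z₀)
      have h3a : DifferentiableOn ℂ (fun z => A.e i ((A.e j).symm z) - z₀)
          ((A.e j).target ∩ (A.e j).symm ⁻¹' U) := h1.sub_const z₀
      exact (h3a.add h3b).const_smul (1 / 2 : ℂ)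
    exact (differentiable_Qm.comp_differentiableOn h3).const_add _
  · intro V hV hVo
    have h1 : IsOpen ((A.e i) '' V) :=
      (A.e i).isOpen_image_of_subset_source hVo fun u hu => (hUs (hV hu)).1
    have h2 : IsOpen (e '' ((A.e i) '' V)) := by
      refine e.isOpen_image_of_subset_source h1 ?_
      rintro _ ⟨u, hu, rfl⟩
      exact (hUs (hV hu)).2.1
    have h3 : IsOpen (Qm ℓ a '' (e '' ((A.e i) '' V))) := isOpenMap_Qm ha _ h2
    have h4 : (fun u => c0 n + Qm ℓ a (Ψ u)) '' V =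
        (fun w => c0 n + w) '' (Qm ℓ a '' (e '' ((A.e i) '' V))) := by
      rw [image_image, image_image, image_image]
      refine image_congr fun u hu => ?_
      rw [hΨe u (hV hu)]
    rw [h4]
    exact (Homeomorph.addLeft (c0 n)).isOpenMap _ h3
  · intro u hu v hv
    constructor
    · intro h
      obtain ⟨g, -, hg⟩ := (hQ.fib _ _).1 h
      rcases hst g (hU g u hu (by rw [hg]; exact hv)) with h1 | h1
      · rw [h1, one_smul] at hg
        rw [hg]
      · rw [h1] at hg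
        rw [← hg, hΨσ]
        congr 1
        exact (Qm_eq_iff ha _ _).2 (Or.inr (hLv _))
    · intro h
      rcases (Qm_eq_iff ha _ _).1 (add_left_cancel h) with h1 | h1
      · rw [hΨinj _ hv _ hu h1]
      · have h2 : Ψ v = Ψ (σ • u) := by rw [h1, hΨσ, hLv]
        rw [hΨinj _ hv _ (hUσ u hu) h2]
        exact (hQ.fib _ _).2 ⟨σ, trivial, rfl⟩
  · intro u hu k
    refine cube_of_small ?_ k
    rw [hΨF u hu]
    exact (hUs hu).2.2
  · intro w
    exact (ℓ.analyticAt _).comp (analyticAt_id.sub analyticAt_const)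
  · intro w h
    -- move in the direction `a`
    have h1 : Tendsto (fun t : ℝ => w + (t : ℂ) • a) (𝓝 0) (𝓝 w) := by
      have : Continuous fun t : ℝ => w + (t : ℂ) • a := by fun_prop
      have h2 := this.tendsto 0
      simpa using h2
    have h3 := (h1.eventually h)
    have h4 : ∀ᶠ t : ℝ in 𝓝 0, ℓ (w - c0 n) + (t : ℂ) = 0 := by
      filter_upwards [h3] with t ht
      have : ℓ (w + (t : ℂ) • a - c0 n) = ℓ (w - c0 n) + (t : ℂ) := by
        rw [add_sub_right_comm, map_add, map_smul, ha, smul_eq_mul, mul_one]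
      rw [← this]
      exact ht
    have h5 : ℓ (w - c0 n) = 0 := by simpa using h4.self_of_nhds
    rw [h5] at h4
    have h6 : ∀ᶠ t : ℝ in 𝓝 0, t = 0 := by
      filter_upwards [h4] with t ht
      simpa using ht
    obtain ⟨ε, hε, hb⟩ := Metric.eventually_nhds_iff.1 h6
    have h7 := hb (y := ε / 2) (by rw [Real.dist_eq, sub_zero, abs_of_pos (by linarith)]; linarith)
    linarith
  · intro u hu hD
    have hD' : ℓ (Ψ u) ≠ 0 := by
      intro h0
      apply hD
      show ℓ (c0 n + Qm ℓ a (Ψ u) - c0 n) = 0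
      rw [add_sub_cancel_left, l_Qm ha, h0]
      norm_num
    refine ⟨i, (hUs hu).1, ?_⟩
    have hus := hUs hu
    have h1 : HasFDerivAt e (fderiv ℂ e (A.e i u)) (A.e i u) :=
      (hean _ hus.2.1).differentiableAt.hasFDerivAt
    have h2 : HasFDerivAt (fun z => c0 n + Qm ℓ a (e z))
        ((ContinuousLinearMap.id ℂ (Cn n) + ((2 * ℓ (e (A.e i u)) - 1) • ℓ).smulRight a).comp
          (fderiv ℂ e (A.e i u))) (A.e i u) :=
      ((hasFDerivAt_Qm (ℓ := ℓ) (a := a) (e (A.e i u))).comp (A.e i u) h1).const_add _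
    have h3 : (fun z => c0 n + Qm ℓ a (Ψ ((A.e i).symm z))) =ᶠ[𝓝 (A.e i u)]
        fun z => c0 n + Qm ℓ a (e z) := by
      filter_upwards [((A.e i).isOpen_inter_preimage_symm hUo).mem_nhds
        ⟨(A.e i).map_source hus.1, by rw [mem_preimage, (A.e i).left_inv hus.1]; exact hu⟩]
        with z hz
      rw [hΨe _ hz.2, (A.e i).right_inv hz.1]
    rw [h3.fderiv_eq, h2.fderiv]
    -- injectivity of `fderiv e`
    have h4 : HasFDerivAt e.symm (fderiv ℂ e.symm (e (A.e i u))) (e (A.e i u)) :=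
      (hesym _ (e.map_source hus.2.1)).differentiableAt.hasFDerivAt
    have h5 : HasFDerivAt (fun z => e.symm (e z))
        ((fderiv ℂ e.symm (e (A.e i u))).comp (fderiv ℂ e (A.e i u))) (A.e i u) :=
      h4.comp (A.e i u) h1
    have h6 : HasFDerivAt (fun z => e.symm (e z)) (ContinuousLinearMap.id ℂ (Cn n))
        (A.e i u) := by
      refine (hasFDerivAt_id _).congr_of_eventuallyEq ?_
      filter_upwards [e.open_source.mem_nhds hus.2.1] with z hz
      exact e.left_inv hz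
    have h7 := h5.unique h6
    have hker : ∀ v, fderiv ℂ e (A.e i u) v = 0 → v = 0 := by
      intro v hv
      have h8 := congrArg (fun T : Cn n →L[ℂ] Cn n => T v) h7
      have h9 : (fderiv ℂ e.symm (e (A.e i u))) ((fderiv ℂ e (A.e i u)) v) = v := h8
      rw [hv, map_zero] at h9
      exact h9.symm
    intro v w hvw
    have h8 : ((ContinuousLinearMap.id ℂ (Cn n) + ((2 * ℓ (e (A.e i u)) - 1) • ℓ).smulRight a).comp
          (fderiv ℂ e (A.e i u))) (v - w) = 0 := by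
      rw [map_sub, sub_eq_zero]
      exact hvw
    have h9 : (fderiv ℂ e (A.e i u)) (v - w) = 0 := by
      refine Qm_inj ha (v := e (A.e i u)) ?_ h8
      rw [← hΨe u hu]
      exact hD'
    exact sub_eq_zero.1 (hker _ h9)

/-- quotient charts exist everywhere -/
theorem exists_QC (hst : ReflStab G A) (x : X) : ∃ Q : QC A p, x ∈ Q.U := by
  by_cases h : ∀ g : G, g • x = x → g = 1
  · exact exists_QC_free hQ hG x h
  · push Not at h
    obtain ⟨σ, hσ, hσ1⟩ := h
    rcases hst x σ hσ with h1 | ⟨h1, h2⟩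
    · exact absurd h1 hσ1
    · exact exists_QC_refl hQ hG x σ hσ hσ1 h2 h1

/-- the complex structure on the quotient: all points of `X` as index set -/
def qAtl' (hst : ReflStab G A) : Atl n M :=
  qAtl hQ hG X (fun x => (exists_QC hQ hG hst x).choose) (fun m => by
    obtain ⟨x, rfl⟩ := hQ.surj m
    exact ⟨x, x, (exists_QC hQ hG hst x).choose_spec, rfl⟩)

/-- finite covering families of quotient charts if the quotient is compact -/
theorem exists_QC_finite [CompactSpace M] (hst : ReflStab G A) :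
    ∃ (I : Type) (_ : Finite I) (Q : I → QC A p), ∀ m : M, ∃ i, m ∈ p '' (Q i).U := by
  choose Q hxQ using fun x => exists_QC hQ hG hst x
  obtain ⟨t, ht⟩ := isCompact_univ.elim_finite_subcover (fun x : X => p '' (Q x).U)
    (fun x => hQ.opn _ (Q x).op) (fun m _ => by
      obtain ⟨x, rfl⟩ := hQ.surj m
      exact mem_iUnion.2 ⟨x, x, hxQ x, rfl⟩)
  refine ⟨t, inferInstance, fun x => Q x, fun m => ?_⟩
  obtain ⟨x, hx, hm⟩ := mem_iUnion₂.1 (ht (mem_univ m))
  exact ⟨⟨x, hx⟩, hm⟩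

end

end

end Crest.Agent.R272.RQ3_302
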